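import Vale.Agent.P036.Main

/-!
# P036: Heilbronn's problem for points on few convex curves
-/

set_option autoImplicit false

namespace Vale.Agent.Results.P036.ConvexCurves

open Set Vale.Agent.P036

theorem result :
    (∀ (P : Finset (ℝ × ℝ)) (k : ℕ) (K : Fin k → Set (ℝ × ℝ)), 3 ≤ P.card →
      (P : Set (ℝ × ℝ)) ⊆ Icc 0 1 ×ˢ Icc 0 1 → (∀ i, Convex ℝ (K i)) →
      (P : Set (ℝ × ℝ)) ⊆ ⋃ i, frontier (K i) →
      Delta P ≤ 8192 * ((k : ℝ) / P.card) ^ 3) ∧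
    (∀ (a ε : ℝ), 0 < a → ∀ (P : Finset (ℝ × ℝ)) (k : ℕ) (K : Fin k → Set (ℝ × ℝ)),
      3 ≤ P.card → (P : Set (ℝ × ℝ)) ⊆ Icc 0 1 ×ˢ Icc 0 1 → (∀ i, Convex ℝ (K i)) →
      (P : Set (ℝ × ℝ)) ⊆ ⋃ i, frontier (K i) →
      (k : ℝ) ≤ a * (P.card : ℝ) ^ ((1 + ε) / 3) →
      Delta P ≤ 8192 * a ^ 3 * (P.card : ℝ) ^ (-2 + ε)) := by
  have h1 : ∀ (P : Finset (ℝ × ℝ)) (k : ℕ) (K : Fin k → Set (ℝ × ℝ)), 3 ≤ P.card →
      (P : Set (ℝ × ℝ)) ⊆ Icc 0 1 ×ˢ Icc 0 1 → (∀ i, Convex ℝ (K i)) →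
      (P : Set (ℝ × ℝ)) ⊆ ⋃ i, frontier (K i) →
      Delta P ≤ 8192 * ((k : ℝ) / P.card) ^ 3 := by
    intro P k K h3 hP hK hcov
    refine main P k K h3 (fun p hp => ?_) hK fun p hp => ?_
    · have := hP (Finset.mem_coe.2 hp)
      exact ⟨⟨this.1.1, this.1.2⟩, this.2.1, this.2.2⟩
    · exact mem_iUnion.1 (hcov (Finset.mem_coe.2 hp))
  refine ⟨h1, ?_⟩
  intro a ε ha P k K h3 hP hK hcov hk
  refine (h1 P k K h3 hP hK hcov).trans ?_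
  have hn : (0 : ℝ) < P.card := by
    have : 0 < P.card := by omega
    exact_mod_cast this
  rw [mul_assoc]
  refine mul_le_mul_of_nonneg_left ?_ (by norm_num)
  have h4 : (k : ℝ) / P.card ≤ a * (P.card : ℝ) ^ ((-2 + ε) / 3) := by
    rw [div_le_iff₀ hn, mul_assoc, ← Real.rpow_add_one hn.ne']
    have e : (-2 + ε) / 3 + 1 = (1 + ε) / 3 := by ring
    rw [e]
    exact hk
  calc ((k : ℝ) / P.card) ^ 3 ≤ (a * (P.card : ℝ) ^ ((-2 + ε) / 3)) ^ 3 :=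
        pow_le_pow_left₀ (by positivity) h4 3
    _ = a ^ 3 * (P.card : ℝ) ^ (-2 + ε) := by
        rw [mul_pow, ← Real.rpow_natCast ((P.card : ℝ) ^ ((-2 + ε) / 3)) 3, ← Real.rpow_mul hn.le]
        congr 2
        push_cast
        ring

end Vale.Agent.Results.P036.ConvexCurves
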